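import Mathlib.Analysis.Normed.Module.Connected
import Mathlib.Analysis.Normed.Group.BallSphere
import Mathlib.Analysis.Normed.Module.Ball.Action
import Mathlib.Tactic

/-!
P084 (helper83): arcs on the unit sphere of a real normed space.
-/

open Metric Set

namespace Vale.Agent.P084.H83

variable {X : Type*} [NormedAddCommGroup X] [NormedSpace ℝ X]

/-- Monotonicity of the distance to one end point along an arc of the unit sphere. -/
theorem dist_le_of_arc {x y z : X} (hx : ‖x‖ = 1) (hy : ‖y‖ = 1) (hz : ‖z‖ = 1) {a b : ℝ}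
    (ha : 0 ≤ a) (hb : 0 ≤ b) (h : z = a • x + b • y) : ‖x - z‖ ≤ ‖x - y‖ := by
  have h2 : a + b ≤ 1 + a * ‖x - y‖ := by
    have e : (a + b) • y = z - a • (x - y) := by rw [h]; module
    have e1 : ‖(a + b) • y‖ = a + b := by
      rw [norm_smul, hy, mul_one, Real.norm_of_nonneg (by positivity)]
    have e2 : ‖z - a • (x - y)‖ ≤ 1 + a * ‖x - y‖ := by
      refine (norm_sub_le _ _).trans ?_
      rw [hz, norm_smul, Real.norm_of_nonneg ha]
    rw [← e1, e]; exact e2
  have h0 : 1 ≤ a + b := by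
    have : ‖z‖ ≤ a + b := by
      rw [h]
      refine (norm_add_le _ _).trans ?_
      rw [norm_smul, norm_smul, hx, hy, Real.norm_of_nonneg ha, Real.norm_of_nonneg hb]
      linarith
    rwa [hz] at this
  rcases le_or_gt a 1 with h1 | h1
  · have e : x - z = (1 - a) • (x - y) - (a + b - 1) • y := by rw [h]; module
    rw [e]
    refine (norm_sub_le _ _).trans ?_
    rw [norm_smul, norm_smul, hy, Real.norm_of_nonneg (by linarith : (0 : ℝ) ≤ 1 - a),
      Real.norm_of_nonneg (by linarith : (0 : ℝ) ≤ a + b - 1)]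
    nlinarith
  · have ha' : 0 < a := by linarith
    have e : a • (x - z) = -((a - 1) • z + b • y) := by rw [h]; module
    have e1 : a * ‖x - z‖ ≤ (a - 1) + b := by
      have : ‖a • (x - z)‖ = a * ‖x - z‖ := by rw [norm_smul, Real.norm_of_nonneg ha]
      rw [← this, e, norm_neg]
      refine (norm_add_le _ _).trans ?_
      rw [norm_smul, norm_smul, hy, hz, Real.norm_of_nonneg hb,
        Real.norm_of_nonneg (by linarith : (0 : ℝ) ≤ a - 1)]
      linarith
    have e2 : a * ‖x - z‖ ≤ a * ‖x - y‖ := by linarith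
    exact le_of_mul_le_mul_left e2 ha'

theorem sum_le_of_arc {x y z : X} (hx : ‖x‖ = 1) (hy : ‖y‖ = 1) (hz : ‖z‖ = 1) {a b : ℝ}
    (ha : 0 ≤ a) (hb : 0 ≤ b) (h : z = a • x + b • y) : ‖x + y‖ ≤ ‖x + z‖ := by
  rcases hb.eq_or_lt with hb' | hb'
  · have h1 : z = a • x := by rw [h, ← hb', zero_smul, add_zero]
    have h2 : a = 1 := by
      rw [h1, norm_smul, hx, mul_one, Real.norm_of_nonneg ha] at hz
      exact hz
    rw [h2, one_smul] at h1
    rw [h1, ← two_smul ℝ x, norm_smul, hx]
    refine (norm_add_le _ _).trans ?_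
    rw [hx, hy]; norm_num
  · have h1 : y = (a / b) • (-x) + (1 / b) • z := by
      rw [h, smul_add, smul_smul, smul_smul]
      rw [one_div_mul_cancel hb'.ne', one_smul]
      have : 1 / b * a = a / b := by ring
      rw [this]; module
    have h2 := dist_le_of_arc (x := -x) (y := z) (z := y) (by rw [norm_neg, hx]) hz hy
      (div_nonneg ha hb) (by positivity) h1
    have e1 : -x - y = -(x + y) := by abel
    have e2 : -x - z = -(x + z) := by abel
    rwa [e1, e2, norm_neg, norm_neg] at h2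

/-- the radial projection to the sphere; `x₀` is a default value -/
noncomputable def nz (x₀ : sphere (0 : X) 1) (v : X) : sphere (0 : X) 1 :=
  open Classical in if h : v = 0 then x₀ else ⟨‖v‖⁻¹ • v, by
    rw [mem_sphere_zero_iff_norm, norm_smul, norm_inv, norm_norm,
      inv_mul_cancel₀ (norm_ne_zero_iff.mpr h)]⟩

theorem nz_coe (x₀ : sphere (0 : X) 1) {v : X} (h : v ≠ 0) :
    (nz x₀ v : X) = ‖v‖⁻¹ • v := by
  rw [nz, dif_neg h]

theorem nz_self (x₀ : sphere (0 : X) 1) (x : sphere (0 : X) 1) : nz x₀ (x : X) = x := by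
  have h : (x : X) ≠ 0 := by
    intro h
    have := norm_eq_of_mem_sphere x
    rw [h, norm_zero] at this
    exact zero_ne_one this
  apply Subtype.ext
  rw [nz_coe x₀ h, norm_eq_of_mem_sphere, inv_one, one_smul]

theorem continuousAt_nz (x₀ : sphere (0 : X) 1) {v : X} (h : v ≠ 0) :
    ContinuousAt (nz x₀) v := by
  rw [Topology.IsInducing.subtypeVal.continuousAt_iff]
  have h1 : ContinuousAt (fun w : X => ‖w‖⁻¹ • w) v :=
    (continuousAt_id.norm.inv₀ (norm_ne_zero_iff.mpr h)).smul continuousAt_id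
  refine h1.congr ?_
  filter_upwards [isOpen_ne.mem_nhds h] with w hw
  exact (nz_coe x₀ hw).symm

/-- the arc from `x` to `y` -/
noncomputable def arc (x y : sphere (0 : X) 1) (t : ℝ) : sphere (0 : X) 1 :=
  nz x ((1 - t) • (x : X) + t • (y : X))

theorem arc_zero (x y : sphere (0 : X) 1) : arc x y 0 = x := by
  rw [arc, sub_zero, one_smul, zero_smul, add_zero, nz_self]

theorem arc_one (x y : sphere (0 : X) 1) : arc x y 1 = y := by
  rw [arc, sub_self, zero_smul, one_smul, zero_add, nz_self]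

theorem ne_zero_of_ne_neg {x y : sphere (0 : X) 1} (h : y ≠ -x) {t : ℝ} (h0 : 0 ≤ t)
    (h1 : t ≤ 1) : (1 - t) • (x : X) + t • (y : X) ≠ 0 := by
  intro h2
  have h3 : (1 - t) • (x : X) = -(t • (y : X)) := eq_neg_of_add_eq_zero_left h2
  have h4 : 1 - t = t := by
    have := congrArg norm h3
    rw [norm_neg, norm_smul, norm_smul, norm_eq_of_mem_sphere, norm_eq_of_mem_sphere, mul_one,
      mul_one, Real.norm_of_nonneg (by linarith), Real.norm_of_nonneg h0] at this
    exact this
  have ht : t = 1 / 2 := by linarith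
  apply h
  apply Subtype.ext
  change (y : X) = -(x : X)
  have h5 : t • ((x : X) + (y : X)) = 0 := by
    rw [smul_add]; rw [h4] at h2; exact h2
  have h6 : (x : X) + (y : X) = 0 := by
    rcases smul_eq_zero.mp h5 with h7 | h7
    · exfalso; rw [ht] at h7; norm_num at h7
    · exact h7
  exact eq_neg_of_add_eq_zero_right h6

theorem arc_coe {x y : sphere (0 : X) 1} (h : y ≠ -x) {t : ℝ} (h0 : 0 ≤ t) (h1 : t ≤ 1) :
    (arc x y t : X) = (‖(1 - t) • (x : X) + t • (y : X)‖⁻¹ * (1 - t)) • (x : X) +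
      (‖(1 - t) • (x : X) + t • (y : X)‖⁻¹ * t) • (y : X) := by
  rw [arc, nz_coe _ (ne_zero_of_ne_neg h h0 h1), smul_add, smul_smul, smul_smul]

theorem continuousAt_arc {x y : sphere (0 : X) 1} (h : y ≠ -x) {t : ℝ} (h0 : 0 ≤ t)
    (h1 : t ≤ 1) : ContinuousAt (arc x y) t := by
  unfold arc
  refine ContinuousAt.comp (f := fun t : ℝ => (1 - t) • (x : X) + t • (y : X))
    (continuousAt_nz _ (ne_zero_of_ne_neg h h0 h1)) ?_
  fun_prop

/-- along the arc between acute points all points are acute with the first one -/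
theorem arc_acute {x y : sphere (0 : X) 1} (h : ‖(x : X) - y‖ < ‖(x : X) + y‖) {t : ℝ}
    (h0 : 0 ≤ t) (h1 : t ≤ 1) : ‖(x : X) - arc x y t‖ < ‖(x : X) + arc x y t‖ := by
  have hne : y ≠ -x := by
    rintro rfl
    have : ((-x : sphere (0 : X) 1) : X) = -(x : X) := rfl
    rw [this, add_neg_cancel, norm_zero] at h
    exact absurd h (not_lt.mpr (norm_nonneg _))
  have e := arc_coe hne h0 h1
  have hx := norm_eq_of_mem_sphere x
  have hy := norm_eq_of_mem_sphere y
  have hz := norm_eq_of_mem_sphere (arc x y t)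
  have ha : 0 ≤ ‖(1 - t) • (x : X) + t • (y : X)‖⁻¹ * (1 - t) :=
    mul_nonneg (inv_nonneg.mpr (norm_nonneg _)) (by linarith)
  have hb : 0 ≤ ‖(1 - t) • (x : X) + t • (y : X)‖⁻¹ * t :=
    mul_nonneg (inv_nonneg.mpr (norm_nonneg _)) h0
  exact lt_of_le_of_lt (dist_le_of_arc hx hy hz ha hb e)
    (lt_of_lt_of_le h (sum_le_of_arc hx hy hz ha hb e))

end Vale.Agent.P084.H83
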