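import Vale.Agent.P084.H83.Arc
import Mathlib.Topology.Covering.Quotient
import Mathlib.Topology.Homotopy.Lifting

/-!
P084 (helper83): lifting through the double covering of the sphere modulo sign.
-/

open Metric Set Filter Topology unitInterval

namespace Vale.Agent.P084.H83

variable (Y : Type*) [NormedAddCommGroup Y] [NormedSpace ℝ Y]

/-- the projection of the unit sphere to its quotient modulo sign -/
noncomputable def pq : sphere (0 : Y) 1 → Quotient (MulAction.orbitRel (sphere (0 : ℝ) 1) (sphere (0 : Y) 1)) :=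
  Quotient.mk _

variable {Y}

theorem sign_cases (g : sphere (0 : ℝ) 1) : g = 1 ∨ g = -1 := by
  have h : |(g : ℝ)| = 1 := by
    have := norm_eq_of_mem_sphere g
    rwa [Real.norm_eq_abs] at this
  rcases abs_eq (zero_le_one) |>.mp h with h1 | h1
  · left; exact Subtype.ext h1
  · right; exact Subtype.ext h1

theorem smul_cases (g : sphere (0 : ℝ) 1) (y : sphere (0 : Y) 1) : g • y = y ∨ g • y = -y := by
  rcases sign_cases g with rfl | rfl
  · left; exact one_smul _ _
  · right
    apply Subtype.ext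
    change ((-1 : sphere (0 : ℝ) 1) : ℝ) • (y : Y) = -(y : Y)
    have : ((-1 : sphere (0 : ℝ) 1) : ℝ) = -1 := rfl
    rw [this, neg_one_smul]

theorem dist_neg_self (y : sphere (0 : Y) 1) : dist y (-y) = 2 := by
  change dist (y : Y) (-(y : Y)) = 2
  rw [dist_eq_norm, sub_neg_eq_add, ← two_smul ℝ, norm_smul, norm_eq_of_mem_sphere]
  norm_num

theorem pq_eq {x y : sphere (0 : Y) 1} (h : pq Y x = pq Y y) : x = y ∨ x = -y := by
  have h1 : x ∈ MulAction.orbit (sphere (0 : ℝ) 1) y := Quotient.eq''.mp h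
  obtain ⟨g, rfl⟩ := h1
  exact smul_cases g y

theorem pq_neg (y : sphere (0 : Y) 1) : pq Y (-y) = pq Y y := by
  apply Quotient.eq''.mpr
  refine ⟨-1, ?_⟩
  apply Subtype.ext
  change ((-1 : sphere (0 : ℝ) 1) : ℝ) • (y : Y) = -(y : Y)
  have : ((-1 : sphere (0 : ℝ) 1) : ℝ) = -1 := rfl
  rw [this, neg_one_smul]

theorem isQuotientCoveringMap_pq : IsQuotientCoveringMap (pq Y) (sphere (0 : ℝ) 1) where
  __ := (isQuotientMap_quotient_mk' : IsQuotientMap (pq Y))
  apply_eq_iff_mem_orbit := Quotient.eq''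
  continuous_const_smul g := continuous_const_smul g
  disjoint e := by
    refine ⟨ball e 1, ball_mem_nhds e one_pos, ?_⟩
    rintro g ⟨_, ⟨x, hx, rfl⟩, hy⟩
    rcases sign_cases g with rfl | rfl
    · rfl
    · exfalso
      have h1 : ((-1 : sphere (0 : ℝ) 1) • x) = -x := by
        apply Subtype.ext
        change ((-1 : sphere (0 : ℝ) 1) : ℝ) • (x : Y) = -(x : Y)
        have : ((-1 : sphere (0 : ℝ) 1) : ℝ) = -1 := rfl
        rw [this, neg_one_smul]
      simp only [h1] at hy
      have h2 := dist_neg_self x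
      have h3 := dist_triangle_right x (-x) e
      rw [mem_ball] at hx hy
      linarith

theorem continuous_pq : Continuous (pq Y) := isQuotientCoveringMap_pq.isCoveringMap.continuous

theorem exists_lift {A : Type*} [TopologicalSpace A] (H : I × A → sphere (0 : Y) 1)
    (hH : ∀ b, Tendsto (fun c => min ‖(H c : Y) - H b‖ ‖(H c : Y) + H b‖) (𝓝 b) (𝓝 0))
    (e : sphere (0 : Y) 1) (h0 : ∀ a, H (0, a) = e) :
    ∃ G : I × A → sphere (0 : Y) 1, Continuous G ∧ (∀ a, G (0, a) = e) ∧
      ∀ b, G b = H b ∨ G b = -H b := by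
  have hc : Continuous (fun b => pq Y (H b)) := by
    rw [continuous_iff_continuousAt]
    intro b W hW
    have h1 : pq Y ⁻¹' W ∈ 𝓝 (H b) := continuous_pq.continuousAt hW
    obtain ⟨ε, hε, hb⟩ := Metric.mem_nhds_iff.mp h1
    have h2 : ∀ᶠ c in 𝓝 b, min ‖(H c : Y) - H b‖ ‖(H c : Y) + H b‖ < ε :=
      (hH b).eventually_lt_const hε
    rw [Filter.mem_map]
    filter_upwards [h2] with c hc
    rcases min_lt_iff.mp hc with h3 | h3
    · apply hb
      rw [mem_ball]
      change dist (H c : Y) (H b : Y) < ε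
      rw [dist_eq_norm]; exact h3
    · have h4 : -H c ∈ pq Y ⁻¹' W := by
        apply hb
        rw [mem_ball]
        change dist (-(H c : Y)) (H b : Y) < ε
        rw [dist_eq_norm]
        have : -(H c : Y) - (H b : Y) = -((H c : Y) + H b) := by abel
        rw [this, norm_neg]; exact h3
      change pq Y (-H c) ∈ W at h4
      rw [pq_neg] at h4
      exact h4
  have cov : IsCoveringMap (pq Y) := isQuotientCoveringMap_pq.isCoveringMap
  let G := cov.liftHomotopy (A := A) ⟨fun b => pq Y (H b), hc⟩ (ContinuousMap.const A e)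
    (fun a => by
      change pq Y (H (0, a)) = pq Y e
      rw [h0])
  refine ⟨G, G.continuous, fun a => cov.liftHomotopy_zero _ _ _ a, fun b => ?_⟩
  apply pq_eq
  exact congrFun (cov.liftHomotopy_lifts ⟨fun b => pq Y (H b), hc⟩ (ContinuousMap.const A e) _) b

end Vale.Agent.P084.H83
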