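import Vale.Agent.P084.H83.Lift
import Vale.Agent.P084.Bdl.B5

/-!
P084 (helper83): maps of unit spheres which preserve the norms of sums and differences up to
order. Choice of signs.
-/

open Metric Set Filter Topology unitInterval

namespace Vale.Agent.P084.H83

set_option linter.unusedSectionVars false

variable {X : Type*} [NormedAddCommGroup X] [NormedSpace ℝ X]
  {Y : Type*} [NormedAddCommGroup Y] [NormedSpace ℝ Y]

/-- sums and differences have the same norms, up to order -/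
def Ph (f : sphere (0 : X) 1 → sphere (0 : Y) 1) : Prop :=
  ∀ x y, (‖(f x : Y) + f y‖ = ‖(x : X) + y‖ ∧ ‖(f x : Y) - f y‖ = ‖(x : X) - y‖) ∨
    (‖(f x : Y) + f y‖ = ‖(x : X) - y‖ ∧ ‖(f x : Y) - f y‖ = ‖(x : X) + y‖)

theorem Ph.of_sign {f g : sphere (0 : X) 1 → sphere (0 : Y) 1} (hf : Ph f)
    (h : ∀ x, g x = f x ∨ g x = -f x) : Ph g := by
  intro x y
  have hn : ∀ z : sphere (0 : Y) 1, ((-z : sphere (0 : Y) 1) : Y) = -(z : Y) := fun _ => rfl
  have e1 : ∀ a b : Y, ‖-a + b‖ = ‖a - b‖ := fun a b => by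
    rw [← norm_neg]; congr 1; abel
  have e2 : ∀ a b : Y, ‖-a - b‖ = ‖a + b‖ := fun a b => by
    rw [← norm_neg]; congr 1; abel
  have e3 : ∀ a b : Y, ‖a + -b‖ = ‖a - b‖ := fun a b => by congr 1; abel
  have e4 : ∀ a b : Y, ‖a - -b‖ = ‖a + b‖ := fun a b => by congr 1; abel
  have e5 : ∀ a b : Y, ‖-a + -b‖ = ‖a + b‖ := fun a b => by
    rw [← norm_neg]; congr 1; abel
  have e6 : ∀ a b : Y, ‖-a - -b‖ = ‖a - b‖ := fun a b => by
    rw [← norm_neg]; congr 1; abel
  rcases h x with hx | hx <;> rcases h y with hy | hy <;> rw [hx, hy] <;>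
    rcases hf x y with ⟨h1, h2⟩ | ⟨h1, h2⟩
  · exact Or.inl ⟨h1, h2⟩
  · exact Or.inr ⟨h1, h2⟩
  · rw [hn, e3, e4]; exact Or.inr ⟨h2, h1⟩
  · rw [hn, e3, e4]; exact Or.inl ⟨h2, h1⟩
  · rw [hn, e1, e2]; exact Or.inr ⟨h2, h1⟩
  · rw [hn, e1, e2]; exact Or.inl ⟨h2, h1⟩
  · rw [hn, hn, e5, e6]; exact Or.inl ⟨h1, h2⟩
  · rw [hn, hn, e5, e6]; exact Or.inr ⟨h1, h2⟩

theorem Ph.min_eq {f : sphere (0 : X) 1 → sphere (0 : Y) 1} (hf : Ph f) (x y) :
    min ‖(f x : Y) - f y‖ ‖(f x : Y) + f y‖ = min ‖(x : X) - y‖ ‖(x : X) + y‖ := by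
  rcases hf x y with ⟨h1, h2⟩ | ⟨h1, h2⟩
  · rw [h1, h2]
  · rw [h1, h2, min_comm]

theorem norm_two (x : sphere (0 : X) 1) : ‖(x : X) + x‖ = 2 := by
  rw [← two_smul ℝ, norm_smul, norm_eq_of_mem_sphere]; norm_num

theorem coe_neg' (x : sphere (0 : X) 1) : ((-x : sphere (0 : X) 1) : X) = -(x : X) := rfl

theorem Ph.neg_cases {f : sphere (0 : X) 1 → sphere (0 : Y) 1} (hf : Ph f) (x) :
    f (-x) = f x ∨ f (-x) = -f x := by
  rcases hf (-x) x with ⟨h1, h2⟩ | ⟨h1, h2⟩
  · right
    rw [coe_neg', neg_add_cancel, norm_zero, norm_eq_zero] at h1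
    exact Subtype.ext (eq_neg_of_add_eq_zero_left h1)
  · left
    rw [coe_neg', neg_add_cancel, norm_zero, norm_eq_zero] at h2
    exact Subtype.ext (sub_eq_zero.mp h2)

/-- parallel unit vectors agree up to sign -/
theorem eq_of_smul {x y : sphere (0 : X) 1} {a b : ℝ} (h : a • (x : X) = b • (y : X))
    (h0 : a ≠ 0 ∨ b ≠ 0) : y = x ∨ y = -x := by
  have h1 : |a| = |b| := by
    have := congrArg norm h
    rwa [norm_smul, norm_smul, norm_eq_of_mem_sphere, norm_eq_of_mem_sphere, mul_one, mul_one]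
      at this
  have hb : b ≠ 0 := by
    rcases h0 with h0 | h0
    · intro hb
      rw [hb, abs_zero, abs_eq_zero] at h1
      exact h0 h1
    · exact h0
  rcases abs_eq_abs.mp h1 with h2 | h2
  · left
    rw [h2] at h
    exact Subtype.ext (smul_right_injective X hb h).symm
  · right
    apply Subtype.ext
    rw [h2] at h
    have h3 : b • (-(x : X)) = b • (y : X) := by rw [smul_neg, ← neg_smul]; exact h
    exact (smul_right_injective X hb h3).symm

/-- a continuous choice of signs on the sphere without one point -/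
theorem exists_slit {f : sphere (0 : X) 1 → sphere (0 : Y) 1} (hf : Ph f)
    (x₀ : sphere (0 : X) 1) :
    ∃ G : sphere (0 : X) 1 → sphere (0 : Y) 1, (∀ x, G x = f x ∨ G x = -f x) ∧
      ContinuousOn G {x | x ≠ -x₀} := by
  classical
  let A := {a : sphere (0 : X) 1 // a ≠ -x₀}
  let H : I × A → sphere (0 : Y) 1 := fun b => f (arc x₀ b.2.1 b.1)
  have hH : ∀ b, Tendsto (fun c => min ‖(H c : Y) - H b‖ ‖(H c : Y) + H b‖) (𝓝 b) (𝓝 0) := by
    intro b
    have h1 : ContinuousAt (fun c : I × A => (arc x₀ c.2.1 c.1 : X)) b := by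
      refine continuous_subtype_val.continuousAt.comp ?_
      unfold arc
      refine ContinuousAt.comp
        (f := fun c : I × A => (1 - (c.1 : ℝ)) • (x₀ : X) + (c.1 : ℝ) • (c.2.1 : X))
        (continuousAt_nz _ (ne_zero_of_ne_neg b.2.2 b.1.2.1 b.1.2.2)) ?_
      exact (((continuous_const.sub (continuous_subtype_val.comp continuous_fst)).smul
        continuous_const).add ((continuous_subtype_val.comp continuous_fst).smul
        (continuous_subtype_val.comp (continuous_subtype_val.comp continuous_snd)))).continuousAt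
    have h2 : Tendsto (fun c : I × A => ‖(arc x₀ c.2.1 c.1 : X) - arc x₀ b.2.1 b.1‖) (𝓝 b)
        (𝓝 0) := by
      have := (h1.sub (continuousAt_const (y := (arc x₀ b.2.1 b.1 : X)))).norm
      simpa [ContinuousAt] using this
    refine squeeze_zero (fun c => le_min (norm_nonneg _) (norm_nonneg _)) (fun c => ?_) h2
    change min ‖(f (arc x₀ c.2.1 c.1) : Y) - f (arc x₀ b.2.1 b.1)‖ _ ≤ _
    rw [hf.min_eq]
    exact min_le_left _ _
  obtain ⟨G, hG, -, hGH⟩ := exists_lift H hH (f x₀) (fun a => by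
    change f (arc x₀ a.1 ((0 : I) : ℝ)) = f x₀
    rw [Set.Icc.coe_zero, arc_zero])
  refine ⟨fun x => if h : x ≠ -x₀ then G (1, ⟨x, h⟩) else f x, fun x => ?_, ?_⟩
  · by_cases h : x ≠ -x₀
    · simp only [h, ne_eq, not_false_eq_true, dite_true]
      have h1 := hGH (1, ⟨x, h⟩)
      have h2 : H (1, ⟨x, h⟩) = f x := by
        change f (arc x₀ x ((1 : I) : ℝ)) = f x
        rw [Set.Icc.coe_one, arc_one]
      rwa [h2] at h1
    · left
      exact dif_neg h
  · rw [continuousOn_iff_continuous_domRestrict]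
    have h1 : Continuous (fun a : A => G (1, a)) := hG.comp (by fun_prop)
    refine h1.congr fun a => ?_
    change G (1, a) = dite _ _ _
    rw [dif_pos a.2]

/-- pairs of acute points whose arc avoids the exceptional point -/
theorem acute_of_avoid {G : sphere (0 : X) 1 → sphere (0 : Y) 1} (hG : Ph G)
    {x₀ : sphere (0 : X) 1} (hc : ContinuousOn G {x | x ≠ -x₀}) {x y : sphere (0 : X) 1}
    (h : ‖(x : X) - y‖ < ‖(x : X) + y‖) (ha : ∀ t ∈ Icc (0 : ℝ) 1, arc x y t ≠ -x₀) :
    ‖(G x : Y) - G y‖ = ‖(x : X) - y‖ := by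
  have hne : y ≠ -x := by
    rintro rfl
    rw [coe_neg', add_neg_cancel, norm_zero] at h
    exact absurd h (not_lt.mpr (norm_nonneg _))
  let ψ : ℝ → ℝ := fun t => ‖(G x : Y) - G (arc x y t)‖ -
    (‖(x : X) - arc x y t‖ + ‖(x : X) + arc x y t‖) / 2
  have hca : ContinuousOn (fun t : ℝ => arc x y t) (Icc 0 1) := fun t ht =>
    (continuousAt_arc hne ht.1 ht.2).continuousWithinAt
  have hcG : ContinuousOn (fun t : ℝ => G (arc x y t)) (Icc 0 1) := hc.comp hca ha
  have hca' : ContinuousOn (fun t : ℝ => (arc x y t : X)) (Icc 0 1) :=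
    continuous_subtype_val.comp_continuousOn hca
  have hcG' : ContinuousOn (fun t : ℝ => (G (arc x y t) : Y)) (Icc 0 1) :=
    continuous_subtype_val.comp_continuousOn hcG
  have hψ : ContinuousOn ψ (Icc 0 1) :=
    (continuousOn_const.sub hcG').norm.sub
      (((continuousOn_const.sub hca').norm.add (continuousOn_const.add hca').norm).div_const 2)
  have hψ0 : ψ 0 < 0 := by
    change ‖(G x : Y) - G (arc x y 0)‖ - (‖(x : X) - arc x y 0‖ + ‖(x : X) + arc x y 0‖) / 2 < 0
    rw [arc_zero, sub_self, sub_self, norm_zero, norm_zero, norm_two]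
    norm_num
  have hψn : ∀ t ∈ Icc (0 : ℝ) 1, ψ t ≠ 0 := by
    intro t ht h0
    have h1 := arc_acute h ht.1 ht.2
    change ‖(G x : Y) - G (arc x y t)‖ - (‖(x : X) - arc x y t‖ + ‖(x : X) + arc x y t‖) / 2 = 0
      at h0
    rcases hG x (arc x y t) with ⟨-, h2⟩ | ⟨-, h2⟩ <;> rw [h2] at h0 <;> linarith
  have hψ1 : ψ 1 < 0 := by
    by_contra hcon
    obtain ⟨t, ht, h0⟩ := intermediate_value_Icc zero_le_one hψ ⟨hψ0.le, not_lt.mp hcon⟩
    exact hψn t ht h0
  change ‖(G x : Y) - G (arc x y 1)‖ - (‖(x : X) - arc x y 1‖ + ‖(x : X) + arc x y 1‖) / 2 < 0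
    at hψ1
  rw [arc_one] at hψ1
  rcases hG x y with ⟨-, h2⟩ | ⟨-, h2⟩
  · exact h2
  · rw [h2] at hψ1; linarith

/-- evenness is constant along arcs avoiding the two exceptional points -/
theorem even_along {G : sphere (0 : X) 1 → sphere (0 : Y) 1} (hG : Ph G)
    {x₀ : sphere (0 : X) 1} (hc : ContinuousOn G {x | x ≠ -x₀}) {x y : sphere (0 : X) 1}
    (hne : y ≠ -x) (ha : ∀ t ∈ Icc (0 : ℝ) 1, arc x y t ≠ -x₀ ∧ arc x y t ≠ x₀)
    (he : G (-x) = G x) : G (-y) = G y := by
  let ψ : ℝ → ℝ := fun t => ‖(G (-arc x y t) : Y) - G (arc x y t)‖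
  have hca : ContinuousOn (fun t : ℝ => arc x y t) (Icc 0 1) := fun t ht =>
    (continuousAt_arc hne ht.1 ht.2).continuousWithinAt
  have hcG : ContinuousOn (fun t : ℝ => G (arc x y t)) (Icc 0 1) :=
    hc.comp hca fun t ht => (ha t ht).1
  have hcG2 : ContinuousOn (fun t : ℝ => G (-arc x y t)) (Icc 0 1) :=
    hc.comp hca.neg fun t ht h => (ha t ht).2 (neg_injective h)
  have hψ : ContinuousOn ψ (Icc 0 1) :=
    ((continuous_subtype_val.comp_continuousOn hcG2).sub
      (continuous_subtype_val.comp_continuousOn hcG)).norm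
  rcases hG.neg_cases y with h | h
  · exact h
  exfalso
  have h0 : ψ 0 = 0 := by
    change ‖(G (-arc x y 0) : Y) - G (arc x y 0)‖ = 0
    rw [arc_zero, he, sub_self, norm_zero]
  have h1 : ψ 1 = 2 := by
    change ‖(G (-arc x y 1) : Y) - G (arc x y 1)‖ = 2
    rw [arc_one, h, coe_neg', ← norm_neg, ← norm_two (G y)]
    congr 1
    abel
  obtain ⟨t, ht, h2⟩ := intermediate_value_Icc zero_le_one hψ
    (show (1 : ℝ) ∈ Icc (ψ 0) (ψ 1) by rw [h0, h1]; constructor <;> norm_num)
  change ‖(G (-arc x y t) : Y) - G (arc x y t)‖ = 1 at h2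
  rcases hG.neg_cases (arc x y t) with h3 | h3
  · rw [h3, sub_self, norm_zero] at h2
    norm_num at h2
  · rw [h3, coe_neg', ← norm_neg] at h2
    have h4 : -(-(G (arc x y t) : Y) - G (arc x y t)) = G (arc x y t) + G (arc x y t) := by abel
    rw [h4, norm_two] at h2
    norm_num at h2

/-- if an arc passes through `x₀` or `-x₀`, these are combinations of the end points -/
theorem comb_of_arc {x y x₀ : sphere (0 : X) 1} (hne : y ≠ -x) (hx : x ≠ x₀) (hx' : x ≠ -x₀)
    (hy : y ≠ x₀) (hy' : y ≠ -x₀) {t : ℝ} (ht : t ∈ Icc (0 : ℝ) 1)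
    (h : arc x y t = -x₀ ∨ arc x y t = x₀) :
    ∃ a b : ℝ, 0 < a ∧ 0 < b ∧ (a • (x : X) + b • (y : X) = x₀ ∨
      a • (x : X) + b • (y : X) = -(x₀ : X)) := by
  have e := arc_coe hne ht.1 ht.2
  set a := ‖(1 - t) • (x : X) + t • (y : X)‖⁻¹ * (1 - t) with ha
  set b := ‖(1 - t) • (x : X) + t • (y : X)‖⁻¹ * t with hb
  have ha0 : 0 ≤ a := mul_nonneg (inv_nonneg.mpr (norm_nonneg _)) (by linarith [ht.2])
  have hb0 : 0 ≤ b := mul_nonneg (inv_nonneg.mpr (norm_nonneg _)) ht.1
  have hor : a • (x : X) + b • (y : X) = x₀ ∨ a • (x : X) + b • (y : X) = -(x₀ : X) := by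
    rcases h with h | h
    · right; rw [← e, h]; rfl
    · left; rw [← e, h]
  refine ⟨a, b, ?_, ?_, hor⟩
  · rcases ha0.eq_or_lt with h1 | h1
    · exfalso
      rw [← h1, zero_smul, zero_add] at hor
      have h2 : x₀ = y ∨ x₀ = -y := by
        rcases hor with h3 | h3
        · exact eq_of_smul (a := b) (b := 1) (by rw [one_smul]; exact h3) (Or.inr one_ne_zero)
        · exact eq_of_smul (a := b) (b := -1) (by rw [neg_one_smul]; exact h3)
            (Or.inr (by norm_num))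
      rcases h2 with h3 | h3
      · exact hy h3.symm
      · exact hy' (by rw [h3, neg_neg])
    · exact h1
  · rcases hb0.eq_or_lt with h1 | h1
    · exfalso
      rw [← h1, zero_smul, add_zero] at hor
      have h2 : x₀ = x ∨ x₀ = -x := by
        rcases hor with h3 | h3
        · exact eq_of_smul (a := a) (b := 1) (by rw [one_smul]; exact h3) (Or.inr one_ne_zero)
        · exact eq_of_smul (a := a) (b := -1) (by rw [neg_one_smul]; exact h3)
            (Or.inr (by norm_num))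
      rcases h2 with h3 | h3
      · exact hx h3.symm
      · exact hx' (by rw [h3, neg_neg])
    · exact h1

/-- evenness is constant -/
theorem even_const {G : sphere (0 : X) 1 → sphere (0 : Y) 1} (hG : Ph G)
    {x₀ : sphere (0 : X) 1} (hc : ContinuousOn G {x | x ≠ -x₀}) {x y : sphere (0 : X) 1}
    (hx : x ≠ x₀) (hx' : x ≠ -x₀) (hy : y ≠ x₀) (hy' : y ≠ -x₀)
    (he : G (-x) = G x) : G (-y) = G y := by
  by_cases h1 : y = x
  · rw [h1, he]
  by_cases h2 : y = -x
  · rw [h2, neg_neg, he]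
  by_cases h3 : ∀ t ∈ Icc (0 : ℝ) 1, arc x y t ≠ -x₀ ∧ arc x y t ≠ x₀
  · exact even_along hG hc h2 h3 he
  have h4 : -y ≠ -x := fun h => h1 (neg_injective h)
  by_cases h5 : ∀ t ∈ Icc (0 : ℝ) 1, arc x (-y) t ≠ -x₀ ∧ arc x (-y) t ≠ x₀
  · have := even_along hG hc h4 h5 he
    rw [neg_neg] at this
    exact this.symm
  exfalso
  simp only [not_forall, not_and_or, not_not] at h3 h5
  obtain ⟨t, ht, h3⟩ := h3
  obtain ⟨u, hu, h5⟩ := h5
  have hy1 : -y ≠ x₀ := fun h => hy' (by rw [← h, neg_neg])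
  have hy2 : -y ≠ -x₀ := fun h => hy (neg_injective h)
  obtain ⟨a, b, ha, hb, hab⟩ := comb_of_arc h2 hx hx' hy hy' ht h3
  obtain ⟨c, d, hc', hd, hcd⟩ := comb_of_arc h4 hx hx' hy1 hy2 hu h5
  rw [coe_neg'] at hcd
  have key : (a - c) • (x : X) = -(b + d) • (y : X) ∨ (a + c) • (x : X) = (d - b) • (y : X) := by
    rcases hab with h6 | h6 <;> rcases hcd with h7 | h7
    · left
      have : a • (x : X) + b • (y : X) - (c • (x : X) + d • -(y : X)) = 0 := by
        rw [h6, h7, sub_self]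
      refine sub_eq_zero.mp (Eq.trans ?_ this); module
    · right
      have : a • (x : X) + b • (y : X) + (c • (x : X) + d • -(y : X)) = 0 := by
        rw [h6, h7, add_neg_cancel]
      refine sub_eq_zero.mp (Eq.trans ?_ this); module
    · right
      have : a • (x : X) + b • (y : X) + (c • (x : X) + d • -(y : X)) = 0 := by
        rw [h6, h7, neg_add_cancel]
      refine sub_eq_zero.mp (Eq.trans ?_ this); module
    · left
      have : a • (x : X) + b • (y : X) - (c • (x : X) + d • -(y : X)) = 0 := by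
        rw [h6, h7, sub_self]
      refine sub_eq_zero.mp (Eq.trans ?_ this); module
  have : y = x ∨ y = -x := by
    rcases key with h6 | h6
    · exact eq_of_smul h6 (Or.inr (by linarith [add_pos hb hd] : -(b + d) ≠ 0 ) )
    · exact eq_of_smul h6 (Or.inl (by positivity))
  rcases this with h | h
  · exact h1 h
  · exact h2 h

end Vale.Agent.P084.H83
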