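import Vale.Agent.P084.H83.Phase

/-!
P084 (helper83): maps of unit spheres which preserve the norms of sums and differences up to
order are isometries up to signs.
-/

open Metric Set Filter Topology unitInterval

set_option linter.unusedSectionVars false

namespace Vale.Agent.P084.H83

variable {X : Type*} [NormedAddCommGroup X] [NormedSpace ℝ X]
  {Y : Type*} [NormedAddCommGroup Y] [NormedSpace ℝ Y]

theorem norm_smul_sub (s : sphere (0 : ℝ) 1) (a b : sphere (0 : Y) 1) :
    ‖((s • a : sphere (0 : Y) 1) : Y) - (s • b : sphere (0 : Y) 1)‖ = ‖(a : Y) - b‖ := by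
  change ‖(s : ℝ) • (a : Y) - (s : ℝ) • (b : Y)‖ = _
  rw [← smul_sub, norm_smul, norm_eq_of_mem_sphere, one_mul]

theorem smul_smul_self (s : sphere (0 : ℝ) 1) (a : sphere (0 : Y) 1) : s • s • a = a := by
  apply Subtype.ext
  change (s : ℝ) • (s : ℝ) • (a : Y) = a
  rw [smul_smul]
  rcases sign_cases s with rfl | rfl
  · change ((1 : ℝ) * 1) • (a : Y) = a
    rw [one_mul, one_smul]
  · change ((-1 : ℝ) * -1) • (a : Y) = a
    norm_num

/-- acute pairs, in general -/
theorem exists_global {G : sphere (0 : X) 1 → sphere (0 : Y) 1} (hG : Ph G)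
    {x₀ : sphere (0 : X) 1} (hc : ContinuousOn G {x | x ≠ -x₀}) (s : sphere (0 : ℝ) 1)
    (hs : ∀ x, x ≠ x₀ → x ≠ -x₀ → G (-x) = s • G x) :
    ∃ F : sphere (0 : X) 1 → sphere (0 : Y) 1, (∀ x, F x = G x ∨ F x = -G x) ∧
      (∀ x, F (-x) = s • F x) ∧
      ∀ x y : sphere (0 : X) 1, ‖(x : X) - y‖ < ‖(x : X) + y‖ →
        ‖(F x : Y) - F y‖ = ‖(x : X) - y‖ := by
  classical
  let F : sphere (0 : X) 1 → sphere (0 : Y) 1 := fun x => if x = -x₀ then s • G x₀ else G x
  have hF1 : F (-x₀) = s • G x₀ := if_pos rfl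
  have hF2 : ∀ x, x ≠ -x₀ → F x = G x := fun x hx => if_neg hx
  have hx00 : x₀ ≠ -x₀ := ne_neg_of_mem_unit_sphere ℝ x₀
  have hodd : ∀ x, F (-x) = s • F x := by
    intro x
    by_cases h1 : x = x₀
    · rw [h1, hF1, hF2 x₀ hx00]
    by_cases h2 : x = -x₀
    · rw [h2, neg_neg, hF1, hF2 x₀ hx00, smul_smul_self]
    rw [hF2 x h2, hF2 (-x) (fun h => h1 (neg_injective h)), hs x h1 h2]
  refine ⟨F, fun x => ?_, hodd, fun x y h => ?_⟩
  · by_cases h2 : x = -x₀
    · rw [h2, hF1]
      rcases smul_cases s (G x₀) with h3 | h3 <;> rcases hG.neg_cases x₀ with h4 | h4 <;>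
        rw [h3, h4]
      · exact Or.inl rfl
      · right; rw [neg_neg]
      · exact Or.inr rfl
      · exact Or.inl rfl
    · exact Or.inl (hF2 x h2)
  · by_cases ha : ∀ t ∈ Icc (0 : ℝ) 1, arc x y t ≠ -x₀
    · have h0 := ha 0 ⟨le_rfl, zero_le_one⟩
      have h1 := ha 1 ⟨zero_le_one, le_rfl⟩
      rw [arc_zero] at h0
      rw [arc_one] at h1
      rw [hF2 x h0, hF2 y h1]
      exact acute_of_avoid hG hc h ha
    · simp only [not_forall, not_not] at ha
      obtain ⟨t, ht, ha⟩ := ha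
      have hne : y ≠ -x := by
        rintro rfl
        rw [coe_neg', add_neg_cancel, norm_zero] at h
        exact absurd h (not_lt.mpr (norm_nonneg _))
      have hne' : -y ≠ - -x := fun h => hne (neg_injective h)
      have hb : ∀ u ∈ Icc (0 : ℝ) 1, arc (-x) (-y) u ≠ -x₀ := by
        intro u hu hb
        have e1 := arc_coe hne ht.1 ht.2
        have e2 := arc_coe hne' hu.1 hu.2
        rw [ha] at e1
        rw [hb] at e2
        set a := ‖(1 - t) • (x : X) + t • (y : X)‖⁻¹ * (1 - t)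
        set b := ‖(1 - t) • (x : X) + t • (y : X)‖⁻¹ * t
        have hn1 : 0 < ‖(1 - t) • (x : X) + t • (y : X)‖⁻¹ :=
          inv_pos.mpr (norm_pos_iff.mpr (ne_zero_of_ne_neg hne ht.1 ht.2))
        have hn2 : 0 ≤ ‖(1 - u) • ((-x : sphere (0 : X) 1) : X) +
          u • ((-y : sphere (0 : X) 1) : X)‖⁻¹ := inv_nonneg.mpr (norm_nonneg _)
        have ha0 : 0 ≤ a := mul_nonneg hn1.le (by linarith [ht.2])
        have hb0 : 0 ≤ b := mul_nonneg hn1.le ht.1
        have hab : 0 < a + b := by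
          have : a + b = ‖(1 - t) • (x : X) + t • (y : X)‖⁻¹ := by
            change _ * (1 - t) + _ * t = _
            ring
          rw [this]; exact hn1
        set c := ‖(1 - u) • ((-x : sphere (0 : X) 1) : X) +
          u • ((-y : sphere (0 : X) 1) : X)‖⁻¹ * (1 - u)
        set d := ‖(1 - u) • ((-x : sphere (0 : X) 1) : X) +
          u • ((-y : sphere (0 : X) 1) : X)‖⁻¹ * u
        have hc0 : 0 ≤ c := mul_nonneg hn2 (by linarith [hu.2])
        have hd0 : 0 ≤ d := mul_nonneg hn2 hu.1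
        have key : (a + c) • (x : X) = (b + d) • (-(y : X)) := by
          rw [coe_neg', coe_neg', coe_neg'] at e2
          have h3 : a • (x : X) + b • (y : X) - (c • -(x : X) + d • -(y : X)) = 0 := by
            rw [← e1, coe_neg', ← e2, sub_self]
          refine sub_eq_zero.mp (Eq.trans ?_ h3)
          module
        have hac : a + c = b + d := by
          have := congrArg norm key
          rwa [norm_smul, norm_smul, norm_neg, norm_eq_of_mem_sphere, norm_eq_of_mem_sphere,
            mul_one, mul_one, Real.norm_of_nonneg (by positivity),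
            Real.norm_of_nonneg (by positivity)] at this
        have hpos : b + d ≠ 0 := by
          intro h0
          have : a + b + (c + d) = 0 := by linarith
          have : 0 < a + b + (c + d) := by positivity
          linarith
        rw [hac] at key
        have := smul_right_injective X hpos key
        apply hne
        apply Subtype.ext
        rw [coe_neg', this, neg_neg]
      have h0 := hb 0 ⟨le_rfl, zero_le_one⟩
      have h1 := hb 1 ⟨zero_le_one, le_rfl⟩
      rw [arc_zero] at h0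
      rw [arc_one] at h1
      have e1 : ‖((-x : sphere (0 : X) 1) : X) - (-y : sphere (0 : X) 1)‖ = ‖(x : X) - y‖ := by
        rw [coe_neg', coe_neg', ← norm_neg]; congr 1; abel
      have e2 : ‖((-x : sphere (0 : X) 1) : X) + (-y : sphere (0 : X) 1)‖ = ‖(x : X) + y‖ := by
        rw [coe_neg', coe_neg', ← norm_neg]; congr 1; abel
      have h2 := acute_of_avoid hG hc (by rw [e1, e2]; exact h) hb
      have h3 : F x = s • G (-x) := by
        have := hodd (-x)
        rw [neg_neg, hF2 _ h0] at this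
        exact this
      have h4 : F y = s • G (-y) := by
        have := hodd (-y)
        rw [neg_neg, hF2 _ h1] at this
        exact this
      rw [h3, h4, norm_smul_sub, h2, e1]

/-- the even case does not occur -/
theorem not_even {F : sphere (0 : X) 1 → sphere (0 : Y) 1} (hF : Ph F)
    (he : ∀ x, F (-x) = F x)
    (ha : ∀ x y : sphere (0 : X) 1, ‖(x : X) - y‖ < ‖(x : X) + y‖ →
        ‖(F x : Y) - F y‖ = ‖(x : X) - y‖)
    (hd : ∀ y : sphere (0 : Y) 1, ∀ ε : ℝ, 0 < ε → ∃ x, ‖(F x : Y) - y‖ < ε ∨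
      ‖(F x : Y) + y‖ < ε) {x₀ x₁ : sphere (0 : X) 1} (h0 : x₁ ≠ x₀) (h1 : x₁ ≠ -x₀) : False := by
  have hsum : ∀ x y : sphere (0 : X) 1, 2 ≤ ‖(x : X) - y‖ + ‖(x : X) + y‖ := by
    intro x y
    have h2 : ‖((x : X) - y) + (x + y)‖ = 2 := by
      rw [← norm_two x]; congr 1; abel
    rw [← h2]
    exact norm_add_le _ _
  have hac : ∀ x y : sphere (0 : X) 1, ‖(x : X) - y‖ < ‖(x : X) + y‖ → 1 ≤ ‖(F x : Y) + F y‖ := by
    intro x y h
    have h2 := ha x y h
    have h3 := hsum x y
    rcases hF x y with ⟨h4, h5⟩ | ⟨h4, h5⟩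
    · rw [h4]; linarith
    · rw [h5] at h2; linarith
  have hall : ∀ x y : sphere (0 : X) 1, 1 ≤ ‖(F x : Y) + F y‖ := by
    intro x y
    rcases lt_trichotomy ‖(x : X) - y‖ ‖(x : X) + y‖ with h | h | h
    · exact hac x y h
    · have h3 := hsum x y
      rcases hF x y with ⟨h4, h5⟩ | ⟨h4, h5⟩ <;> rw [h4] <;> linarith
    · have e1 : ‖((-x : sphere (0 : X) 1) : X) - y‖ = ‖(x : X) + y‖ := by
        rw [coe_neg', ← norm_neg]; congr 1; abel
      have e2 : ‖((-x : sphere (0 : X) 1) : X) + y‖ = ‖(x : X) - y‖ := by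
        rw [coe_neg', ← norm_neg]; congr 1; abel
      have := hac (-x) y (by rw [e1, e2]; exact h)
      rwa [he] at this
  -- the sphere of `Y` is connected
  have hpar : ∀ x y : sphere (0 : X) 1, F x = F y ∨ F x = -F y → x = y ∨ x = -y := by
    intro x y h
    have h2 : ‖(F x : Y) - F y‖ = 0 ∨ ‖(F x : Y) + F y‖ = 0 := by
      rcases h with h | h
      · left; rw [h, sub_self, norm_zero]
      · right; rw [h, coe_neg', neg_add_cancel, norm_zero]
    have h3 : ‖(x : X) - y‖ = 0 ∨ ‖(x : X) + y‖ = 0 := by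
      rcases hF x y with ⟨h4, h5⟩ | ⟨h4, h5⟩
      · rw [← h4, ← h5]; exact h2
      · rw [← h4, ← h5]; exact h2.symm
    rcases h3 with h3 | h3
    · left; exact Subtype.ext (sub_eq_zero.mp (norm_eq_zero.mp h3))
    · right; exact Subtype.ext (eq_neg_of_add_eq_zero_left (norm_eq_zero.mp h3))
  have hrank : 1 < Module.rank ℝ Y := by
    by_contra hr
    obtain ⟨v, hv⟩ := rank_le_one_iff.mp (not_lt.mp hr)
    obtain ⟨r, hr1⟩ := hv (F x₁ : Y)
    obtain ⟨q, hq⟩ := hv (F x₀ : Y)
    have hr0 : r ≠ 0 := by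
      rintro rfl
      rw [zero_smul] at hr1
      have := norm_eq_of_mem_sphere (F x₁)
      rw [← hr1, norm_zero] at this
      exact zero_ne_one this
    have h2 : F x₁ = F x₀ ∨ F x₁ = -F x₀ := by
      refine eq_of_smul (a := r) (b := q) ?_ (Or.inl hr0)
      rw [← hr1, ← hq, smul_smul, smul_smul, mul_comm]
    rcases hpar x₁ x₀ h2 with h3 | h3
    · exact h0 h3
    · exact h1 h3
  have hconn : PreconnectedSpace (sphere (0 : Y) 1) :=
    Subtype.preconnectedSpace (isPreconnected_sphere hrank 0 1)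
  have h2 := isPreconnected_closed_iff.mp (isPreconnected_univ (α := sphere (0 : Y) 1))
    (closure (range F)) (closure (range fun x => -F x)) isClosed_closure isClosed_closure
    (by
      intro y _
      by_contra hcon
      rw [mem_union, not_or, Metric.mem_closure_iff, Metric.mem_closure_iff] at hcon
      obtain ⟨hc1, hc2⟩ := hcon
      simp only [not_forall, not_exists, not_and, not_lt] at hc1 hc2
      obtain ⟨ε, hε, hc1⟩ := hc1
      obtain ⟨η, hη, hc2⟩ := hc2
      obtain ⟨x, hx⟩ := hd y (min ε η) (lt_min hε hη)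
      rcases hx with hx | hx
      · have h3 := hc1 (F x) ⟨x, rfl⟩
        have h4 : dist y (F x) = ‖(F x : Y) - y‖ := by
          rw [dist_comm]; change dist (F x : Y) (y : Y) = _; rw [dist_eq_norm]
        rw [h4] at h3
        linarith [min_le_left ε η]
      · have h3 := hc2 (-F x) ⟨x, rfl⟩
        have h4 : dist y (-F x) = ‖(F x : Y) + y‖ := by
          change dist (y : Y) (-(F x : Y)) = _
          rw [dist_eq_norm, sub_neg_eq_add, add_comm]
        rw [h4] at h3
        linarith [min_le_right ε η])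
    ⟨F x₀, mem_univ _, subset_closure ⟨x₀, rfl⟩⟩ ⟨-F x₀, mem_univ _, subset_closure ⟨x₀, rfl⟩⟩
  obtain ⟨y, -, hy1, hy2⟩ := h2
  rw [Metric.mem_closure_iff] at hy1 hy2
  obtain ⟨_, ⟨x, rfl⟩, hx⟩ := hy1 (1 / 2) (by norm_num)
  obtain ⟨_, ⟨x', rfl⟩, hx'⟩ := hy2 (1 / 2) (by norm_num)
  have h3 := dist_triangle_left (F x) (-F x') y
  have h4 : dist (F x) (-F x') = ‖(F x : Y) + F x'‖ := by
    change dist (F x : Y) (-(F x' : Y)) = _
    rw [dist_eq_norm, sub_neg_eq_add]
  rw [h4] at h3
  have h5 := hall x x'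
  linarith

/-- **Choice of signs.** -/
theorem exists_isometry {f : sphere (0 : X) 1 → sphere (0 : Y) 1} (hf : Ph f)
    (hd : ∀ y : sphere (0 : Y) 1, ∀ ε : ℝ, 0 < ε → ∃ x, ‖(f x : Y) - y‖ < ε ∨
      ‖(f x : Y) + y‖ < ε) :
    ∃ F : sphere (0 : X) 1 → sphere (0 : Y) 1, Isometry F ∧ (∀ x, F x = f x ∨ F x = -f x) ∧
      ∀ x, F (-x) = -F x := by
  rcases isEmpty_or_nonempty (sphere (0 : X) 1) with hX | ⟨⟨x₀⟩⟩
  · exact ⟨f, fun x => (hX.false x).elim, fun x => Or.inl rfl, fun x => (hX.false x).elim⟩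
  obtain ⟨G, hGf, hc⟩ := exists_slit hf x₀
  have hG := hf.of_sign hGf
  have hd' : ∀ F : sphere (0 : X) 1 → sphere (0 : Y) 1, (∀ x, F x = G x ∨ F x = -G x) →
      (∀ x, F x = f x ∨ F x = -f x) := by
    intro F hF x
    rcases hF x with h | h <;> rcases hGf x with h' | h' <;> rw [h, h']
    · exact Or.inl rfl
    · exact Or.inr rfl
    · exact Or.inr rfl
    · left; rw [neg_neg]
  by_cases hex : ∃ x₁, x₁ ≠ x₀ ∧ x₁ ≠ -x₀ ∧ G (-x₁) = G x₁
  · exfalso
    obtain ⟨x₁, h0, h1, h2⟩ := hex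
    obtain ⟨F, hF1, hF2, hF3⟩ := exists_global hG hc 1 (fun x hx hx' => by
      rw [one_smul]
      exact even_const hG hc h0 h1 hx hx' h2)
    have hFf := hd' F hF1
    refine not_even (hf.of_sign hFf) (fun x => by rw [hF2, one_smul]) hF3 (fun y ε hε => ?_)
      h0 h1
    obtain ⟨x, hx⟩ := hd y ε hε
    refine ⟨x, ?_⟩
    rcases hFf x with h | h
    · rw [h]; exact hx
    · have e1 : ‖((-f x : sphere (0 : Y) 1) : Y) - y‖ = ‖(f x : Y) + y‖ := by
        rw [coe_neg', ← norm_neg]; congr 1; abel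
      have e2 : ‖((-f x : sphere (0 : Y) 1) : Y) + y‖ = ‖(f x : Y) - y‖ := by
        rw [coe_neg', ← norm_neg]; congr 1; abel
      rw [h, e1, e2]
      exact hx.symm
  · obtain ⟨F, hF1, hF2, hF3⟩ := exists_global hG hc (-1) (fun x hx hx' => by
      have h1 : ((-1 : sphere (0 : ℝ) 1) • G x) = -G x := by
        apply Subtype.ext
        change (-1 : ℝ) • (G x : Y) = -(G x : Y)
        rw [neg_one_smul]
      rw [h1]
      rcases hG.neg_cases x with h2 | h2
      · exact (hex ⟨x, hx, hx', h2⟩).elim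
      · exact h2)
    have hFf := hd' F hF1
    have hFp := hf.of_sign hFf
    have hodd : ∀ x, F (-x) = -F x := by
      intro x
      rw [hF2]
      apply Subtype.ext
      change (-1 : ℝ) • (F x : Y) = -(F x : Y)
      rw [neg_one_smul]
    refine ⟨F, ?_, hFf, hodd⟩
    refine Isometry.of_dist_eq fun x y => ?_
    change dist (F x : Y) (F y : Y) = dist (x : X) (y : X)
    rw [dist_eq_norm, dist_eq_norm]
    rcases lt_trichotomy ‖(x : X) - y‖ ‖(x : X) + y‖ with h | h | h
    · exact hF3 x y h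
    · rcases hFp x y with ⟨-, h5⟩ | ⟨-, h5⟩
      · exact h5
      · rw [h5, h]
    · have e1 : ‖(x : X) - (-y : sphere (0 : X) 1)‖ = ‖(x : X) + y‖ := by
        rw [coe_neg']; congr 1; abel
      have e2 : ‖(x : X) + (-y : sphere (0 : X) 1)‖ = ‖(x : X) - y‖ := by
        rw [coe_neg']; congr 1; abel
      have h3 := hF3 x (-y) (by rw [e1, e2]; exact h)
      rw [hodd, e1, coe_neg', sub_neg_eq_add] at h3
      rcases hFp x y with ⟨-, h5⟩ | ⟨h4, -⟩
      · exact h5
      · rw [h3] at h4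
        exact absurd h4 h.ne

end Vale.Agent.P084.H83
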