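import Vale.Agent.P084.H83.Sign
import Vale.Agent.P084.H406.Stab

/-!
P084 (helper83): the Wigner form of Tingley's problem and its stability.
-/

open Metric Set Filter Topology

set_option linter.unusedSectionVars false

namespace Vale.Agent.P084.H83

open Vale.Agent.P084.H406

universe u v

section Basic

variable {X : Type u} [NormedAddCommGroup X] [NormedSpace ℝ X]
  {Y : Type v} [NormedAddCommGroup Y] [NormedSpace ℝ Y]

theorem ph_of_pair {f : sphere (0 : X) 1 → sphere (0 : Y) 1}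
    (h : ∀ x y, ({‖(f x : Y) + f y‖, ‖(f x : Y) - f y‖} : Set ℝ) =
      {‖(x : X) + y‖, ‖(x : X) - y‖}) : Ph f := fun x y =>
  Set.pair_eq_pair_iff.mp (h x y)

theorem pair_of_min_max {a b c d : ℝ} (h1 : min a b = min c d) (h2 : max a b = max c d) :
    (a = c ∧ b = d) ∨ (a = d ∧ b = c) := by
  rcases le_total a b with h | h <;> rcases le_total c d with h' | h' <;>
    simp only [min_eq_left h, min_eq_right h, max_eq_left h, max_eq_right h, min_eq_left h',
      min_eq_right h', max_eq_left h', max_eq_right h'] at h1 h2 <;> tauto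

theorem eq_or_neg_of_min {a b : sphere (0 : Y) 1} (h : min ‖(a : Y) - b‖ ‖(a : Y) + b‖ = 0) :
    a = b ∨ a = -b := by
  rcases min_choice ‖(a : Y) - b‖ ‖(a : Y) + b‖ with h1 | h1
  · left
    rw [h1, norm_eq_zero] at h
    exact Subtype.ext (sub_eq_zero.mp h)
  · right
    rw [h1, norm_eq_zero] at h
    exact Subtype.ext (eq_neg_of_add_eq_zero_left h)

/-- **Wigner form of Tingley's problem.** -/
theorem wigner {f : sphere (0 : X) 1 → sphere (0 : Y) 1} (hf : Ph f)
    (hd : ∀ y : sphere (0 : Y) 1, ∀ ε : ℝ, 0 < ε → ∃ x, ‖(f x : Y) - y‖ < ε ∨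
      ‖(f x : Y) + y‖ < ε) :
    ∃ T : X →ₗᵢ[ℝ] Y, DenseRange T ∧ ∀ x : sphere (0 : X) 1,
      (f x : Y) = T x ∨ (f x : Y) = -T x := by
  obtain ⟨F, hF, hFf, hodd⟩ := exists_isometry hf hd
  have hdr : DenseRange F := by
    intro y
    rw [Metric.mem_closure_iff]
    intro ε hε
    obtain ⟨x, hx⟩ := hd y ε hε
    have key : ∃ x', ‖(F x' : Y) - y‖ < ε := by
      rcases hFf x with h | h <;> rcases hx with h' | h'
      · exact ⟨x, by rw [h]; exact h'⟩
      · refine ⟨-x, ?_⟩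
        rw [hodd, h, coe_neg', ← norm_neg]
        have : -(-(f x : Y) - y) = f x + y := by abel
        rw [this]; exact h'
      · refine ⟨-x, ?_⟩
        rw [hodd, h, neg_neg]; exact h'
      · refine ⟨x, ?_⟩
        rw [h, coe_neg', ← norm_neg]
        have : -(-(f x : Y) - y) = f x + y := by abel
        rw [this]; exact h'
    obtain ⟨x', hx'⟩ := key
    refine ⟨F x', ⟨x', rfl⟩, ?_⟩
    rw [dist_comm]
    change dist (F x' : Y) (y : Y) < ε
    rwa [dist_eq_norm]
  obtain ⟨T, hT, hTF⟩ := dense_range F hF hdr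
  refine ⟨T, hT, fun x => ?_⟩
  rw [hTF]
  rcases hFf x with h | h
  · left; rw [h]
  · right; rw [h, coe_neg', neg_neg]

/-- **Wigner form of Tingley's problem**, surjective up to sign. -/
theorem wigner_surj {f : sphere (0 : X) 1 → sphere (0 : Y) 1} (hf : Ph f)
    (hs : ∀ y : sphere (0 : Y) 1, ∃ x, f x = y ∨ f x = -y) :
    ∃ T : X ≃ₗᵢ[ℝ] Y, ∀ x : sphere (0 : X) 1, (f x : Y) = T x ∨ (f x : Y) = -T x := by
  obtain ⟨F, hF, hFf, hodd⟩ := exists_isometry hf (fun y ε hε => by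
    obtain ⟨x, hx⟩ := hs y
    refine ⟨x, ?_⟩
    rcases hx with h | h
    · left; rw [h, sub_self, norm_zero]; exact hε
    · right; rw [h, coe_neg', neg_add_cancel, norm_zero]; exact hε)
  have hsurj : Function.Surjective F := by
    intro y
    obtain ⟨x, hx⟩ := hs y
    rcases hFf x with h | h <;> rcases hx with h' | h'
    · exact ⟨x, by rw [h, h']⟩
    · exact ⟨-x, by rw [hodd, h, h', neg_neg]⟩
    · exact ⟨-x, by rw [hodd, h, h', neg_neg]⟩
    · exact ⟨x, by rw [h, h', neg_neg]⟩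
  obtain ⟨T, hT⟩ := Vale.Agent.P084.mazurUlam F hF hsurj
  refine ⟨T, fun x => ?_⟩
  rw [hT]
  rcases hFf x with h | h
  · left; rw [h]
  · right; rw [h, coe_neg', neg_neg]

end Basic

section Family

variable {ι : Type} {U : Ultrafilter ι} {E : ι → Type u} [∀ n, NormedAddCommGroup (E n)]
  [∀ n, NormedSpace ℝ (E n)]

theorem tendsto_add_us (x y : ∀ n, sphere (0 : E n) 1) :
    Tendsto (fun n => ‖(x n : E n) + y n‖) (U : Filter ι) (𝓝 ‖us U x + us U y‖) := by
  have hb : ∃ C, ∀ n, ‖(x n : E n) + y n‖ ≤ C := ⟨2, fun n => (norm_add_le _ _).trans (by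
    rw [norm_eq_of_mem_sphere, norm_eq_of_mem_sphere]; norm_num)⟩
  have h : us U x + us U y = up U (fun n => (x n : E n) + y n) hb := rfl
  rw [h]
  exact tendsto_norm_up _ _

theorem tendsto_sub_us (x y : ∀ n, sphere (0 : E n) 1) :
    Tendsto (fun n => ‖(x n : E n) - y n‖) (U : Filter ι) (𝓝 ‖us U x - us U y‖) := by
  have hb : ∃ C, ∀ n, ‖(x n : E n) - y n‖ ≤ C := ⟨2, fun n => (norm_sub_le _ _).trans (by
    rw [norm_eq_of_mem_sphere, norm_eq_of_mem_sphere]; norm_num)⟩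
  have h : us U x - us U y = up U (fun n => (x n : E n) - y n) hb := rfl
  rw [h]
  exact tendsto_norm_up _ _

end Family

section Ext

variable {ι : Type} {U : Ultrafilter ι} {X : ι → Type u} [∀ n, NormedAddCommGroup (X n)]
  [∀ n, NormedSpace ℝ (X n)] {Y : ι → Type v} [∀ n, NormedAddCommGroup (Y n)]
  [∀ n, NormedSpace ℝ (Y n)] {f : ∀ n, sphere (0 : X n) 1 → sphere (0 : Y n) 1} {δ : ι → ℝ}

/-- a unit vector of the ultraproduct -/
noncomputable def uS (x : ∀ n, sphere (0 : X n) 1) : sphere (0 : UP U X) 1 :=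
  ⟨us U x, by rw [mem_sphere_zero_iff_norm]; exact norm_us _⟩

theorem lim_eq (hδ : Tendsto δ (U : Filter ι) (𝓝 0)) {g h : ι → ℝ} {a b : ℝ}
    (hgh : ∀ n, |g n - h n| ≤ δ n) (hg : Tendsto g (U : Filter ι) (𝓝 a))
    (hh : Tendsto h (U : Filter ι) (𝓝 b)) : a = b := by
  have h2 : Tendsto (fun n => g n - h n) (U : Filter ι) (𝓝 0) :=
    squeeze_zero_norm (fun n => by rw [Real.norm_eq_abs]; exact hgh n) hδ
  have h3 := tendsto_nhds_unique h2 (hg.sub hh)
  linarith

theorem ph_us (hδ : Tendsto δ (U : Filter ι) (𝓝 0))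
    (h1 : ∀ n x y, |min ‖(f n x : Y n) - f n y‖ ‖(f n x : Y n) + f n y‖ -
      min ‖(x : X n) - y‖ ‖(x : X n) + y‖| ≤ δ n)
    (h1' : ∀ n x y, |max ‖(f n x : Y n) - f n y‖ ‖(f n x : Y n) + f n y‖ -
      max ‖(x : X n) - y‖ ‖(x : X n) + y‖| ≤ δ n) (x y : ∀ n, sphere (0 : X n) 1) :
    (min ‖us U (fun n => f n (x n)) - us U (fun n => f n (y n))‖
        ‖us U (fun n => f n (x n)) + us U (fun n => f n (y n))‖ =
      min ‖us U x - us U y‖ ‖us U x + us U y‖) ∧
    (max ‖us U (fun n => f n (x n)) - us U (fun n => f n (y n))‖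
        ‖us U (fun n => f n (x n)) + us U (fun n => f n (y n))‖ =
      max ‖us U x - us U y‖ ‖us U x + us U y‖) := by
  have a1 := tendsto_sub_us (U := U) (fun n => f n (x n)) (fun n => f n (y n))
  have a2 := tendsto_add_us (U := U) (fun n => f n (x n)) (fun n => f n (y n))
  have b1 := tendsto_sub_us (U := U) x y
  have b2 := tendsto_add_us (U := U) x y
  exact ⟨lim_eq hδ (fun n => h1 n (x n) (y n)) (a1.min a2) (b1.min b2),
    lim_eq hδ (fun n => h1' n (x n) (y n)) (a1.max a2) (b1.max b2)⟩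

/-- the linear isometry of the ultraproducts -/
theorem exists_T_ph [∀ n, Nonempty (sphere (0 : X n) 1)] (hδ : Tendsto δ (U : Filter ι) (𝓝 0))
    (h1 : ∀ n x y, |min ‖(f n x : Y n) - f n y‖ ‖(f n x : Y n) + f n y‖ -
      min ‖(x : X n) - y‖ ‖(x : X n) + y‖| ≤ δ n)
    (h1' : ∀ n x y, |max ‖(f n x : Y n) - f n y‖ ‖(f n x : Y n) + f n y‖ -
      max ‖(x : X n) - y‖ ‖(x : X n) + y‖| ≤ δ n)
    (h2 : ∀ n, ∀ y : sphere (0 : Y n) 1, ∃ x, min ‖(f n x : Y n) - y‖ ‖(f n x : Y n) + y‖ ≤ δ n) :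
    ∃ T : UP U X ≃ₗᵢ[ℝ] UP U Y, ∀ x : ∀ n, sphere (0 : X n) 1,
      us U (fun n => f n (x n)) = T (us U x) ∨ us U (fun n => f n (x n)) = -T (us U x) := by
  choose rep hrep using fun u : sphere (0 : UP U X) 1 =>
    exists_rep (U := U) (u : UP U X) (norm_eq_of_mem_sphere u)
  have hrep' : ∀ u, us U (rep u) = u := hrep
  have hne : ∀ n, Nonempty (sphere (0 : Y n) 1) := fun n => ⟨f n (Classical.arbitrary _)⟩
  let F : sphere (0 : UP U X) 1 → sphere (0 : UP U Y) 1 := fun u => uS fun n => f n (rep u n)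
  have hFx : ∀ x : ∀ n, sphere (0 : X n) 1,
      F (uS x) = uS (fun n => f n (x n)) ∨ F (uS x) = -uS (fun n => f n (x n)) := by
    intro x
    apply eq_or_neg_of_min
    have h3 := (ph_us hδ h1 h1' (rep (uS x)) x).1
    rw [hrep'] at h3
    refine Eq.trans h3 ?_
    have : ((uS x : sphere (0 : UP U X) 1) : UP U X) = us U x := rfl
    rw [this, sub_self, norm_zero]
    exact min_eq_left (norm_nonneg _)
  have hF : Ph F := by
    intro u w
    have h3 := ph_us hδ h1 h1' (rep u) (rep w)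
    rw [hrep', hrep'] at h3
    have h4 := pair_of_min_max h3.1 h3.2
    rcases h4 with ⟨h5, h6⟩ | ⟨h5, h6⟩
    · exact Or.inl ⟨h6, h5⟩
    · exact Or.inr ⟨h6, h5⟩
  have hs : ∀ w : sphere (0 : UP U Y) 1, ∃ u, F u = w ∨ F u = -w := by
    intro w
    obtain ⟨y, hy⟩ := exists_rep (U := U) (w : UP U Y) (norm_eq_of_mem_sphere w)
    choose x hx using fun n => h2 n (y n)
    have a1 := tendsto_sub_us (U := U) (fun n => f n (x n)) y
    have a2 := tendsto_add_us (U := U) (fun n => f n (x n)) y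
    have a3 := lim_eq hδ (h := fun _ => 0) (fun n => by
      rw [sub_zero, abs_of_nonneg (le_min (norm_nonneg _) (norm_nonneg _))]
      exact hx n) (a1.min a2) tendsto_const_nhds
    have hyw : (uS y : sphere (0 : UP U Y) 1) = w := Subtype.ext hy
    have a4 := eq_or_neg_of_min (a := uS fun n => f n (x n)) (b := uS y) a3
    rw [hyw] at a4
    refine ⟨uS x, ?_⟩
    rcases hFx x with h | h <;> rcases a4 with h' | h' <;> rw [h, h']
    · exact Or.inl rfl
    · exact Or.inr rfl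
    · exact Or.inr rfl
    · left; rw [neg_neg]
  obtain ⟨T, hT⟩ := wigner_surj hF hs
  refine ⟨T, fun x => ?_⟩
  have h3 := hT (uS x)
  have h4 : ((uS x : sphere (0 : UP U X) 1) : UP U X) = us U x := rfl
  have h5 : ((uS (fun n => f n (x n)) : sphere (0 : UP U Y) 1) : UP U Y) =
    us U (fun n => f n (x n)) := rfl
  rw [h4] at h3
  rw [← h5]
  rcases hFx x with h | h
  · rw [h] at h3; exact h3
  · rw [h, coe_neg'] at h3
    rcases h3 with h3 | h3
    · right; rw [← h3, neg_neg]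
    · left; exact neg_injective h3

theorem tendsto_comb_ph [∀ n, Nonempty (sphere (0 : X n) 1)]
    {T : UP U X ≃ₗᵢ[ℝ] UP U Y} {m : ℕ} (x : ∀ n, Fin m → sphere (0 : X n) 1) (e : Fin m → ℝ)
    (he : ∀ i, e i = 1 ∨ e i = -1)
    (hT : ∀ i, e i • us U (fun n => f n (x n i)) = T (us U fun n => x n i))
    (a : ι → Fin m → ℝ) (ha : ∀ n i, |a n i| ≤ 1) :
    Tendsto (fun n => ‖∑ i, (a n i * e i) • (f n (x n i) : Y n)‖ -
      ‖∑ i, a n i • (x n i : X n)‖) (U : Filter ι) (𝓝 0) := by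
  choose b hb using fun i => exists_lim (U := U) (g := fun n => a n i) ⟨1, fun n => ha n i⟩
  have he1 : ∀ i, |e i| = 1 := fun i => by rcases he i with h | h <;> rw [h] <;> norm_num
  have hae : ∀ n i, |a n i * e i| ≤ 1 := fun n i => by
    rw [abs_mul, he1, mul_one]; exact ha n i
  have e1 := up_sum (U := U) (a := a) (b := b) (x := fun n i => (x n i : X n)) ha
    (fun n i => (norm_eq_of_mem_sphere (x n i)).le) hb
  have e2 := up_sum (U := U) (a := fun n i => a n i * e i) (b := fun i => b i * e i)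
    (x := fun n i => (f n (x n i) : Y n)) hae
    (fun n i => (norm_eq_of_mem_sphere (f n (x n i))).le) (fun i => (hb i).mul_const (e i))
  have l1 := tendsto_norm_up (U := U) (fun n => ∑ i, a n i • (x n i : X n))
    (bdd_sum ha fun n i => (norm_eq_of_mem_sphere (x n i)).le)
  have l2 := tendsto_norm_up (U := U) (fun n => ∑ i, (a n i * e i) • (f n (x n i) : Y n))
    (bdd_sum hae fun n i => (norm_eq_of_mem_sphere (f n (x n i))).le)
  rw [e1] at l1
  rw [e2] at l2
  have e3 : ∑ i, (b i * e i) • up U (fun n => (f n (x n i) : Y n))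
      ⟨1, fun n => (norm_eq_of_mem_sphere (f n (x n i))).le⟩ =
      T (∑ i, b i • up U (fun n => (x n i : X n))
        ⟨1, fun n => (norm_eq_of_mem_sphere (x n i)).le⟩) := by
    rw [map_sum]
    refine Finset.sum_congr rfl fun i _ => ?_
    rw [map_smul, mul_smul]
    exact congrArg (b i • ·) (hT i)
  rw [e3, T.norm_map] at l2
  have := l2.sub l1
  rwa [sub_self] at this

end Ext

/-- **Stability of the Wigner form of Tingley's problem**, uniformly over all real normed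
spaces. -/
theorem stability_ph (m : ℕ) (ε : ℝ) (hε : 0 < ε) :
    ∃ δ : ℝ, 0 < δ ∧ ∀ (X : Type u) [NormedAddCommGroup X] [NormedSpace ℝ X]
      (Y : Type v) [NormedAddCommGroup Y] [NormedSpace ℝ Y]
      (f : sphere (0 : X) 1 → sphere (0 : Y) 1),
      (∀ x y, |min ‖(f x : Y) - f y‖ ‖(f x : Y) + f y‖ - min ‖(x : X) - y‖ ‖(x : X) + y‖| ≤ δ) →
      (∀ x y, |max ‖(f x : Y) - f y‖ ‖(f x : Y) + f y‖ - max ‖(x : X) - y‖ ‖(x : X) + y‖| ≤ δ) →
      (∀ y : sphere (0 : Y) 1, ∃ x, min ‖(f x : Y) - y‖ ‖(f x : Y) + y‖ ≤ δ) →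
      ∀ x : Fin m → sphere (0 : X) 1, ∃ e : Fin m → ℝ, (∀ i, e i = 1 ∨ e i = -1) ∧
        ∀ a : Fin m → ℝ,
        |‖∑ i, (a i * e i) • (f (x i) : Y)‖ - ‖∑ i, a i • (x i : X)‖| ≤ ε * ∑ i, |a i| := by
  by_contra hcon
  push Not at hcon
  have hpos : ∀ n : ℕ, (0 : ℝ) < 1 / ((n : ℝ) + 1) := fun n => Nat.one_div_pos_of_nat
  choose X iX iX' Y iY iY' f h1 h1' h2 x hx using fun n : ℕ => hcon _ (hpos n)
  have hm : Nonempty (Fin m) := by
    by_contra hm
    rw [not_nonempty_iff] at hm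
    obtain ⟨a, ha⟩ := hx 0 (fun i => (hm.false i).elim) (fun i => (hm.false i).elim)
    simp at ha
  have hne : ∀ n, Nonempty (sphere (0 : X n) 1) := fun n => ⟨x n hm.some⟩
  have hδ : Tendsto (fun n : ℕ => 1 / ((n : ℝ) + 1)) ((hyperfilter ℕ : Ultrafilter ℕ) : Filter ℕ)
      (𝓝 0) := tendsto_one_div_add_atTop_nhds_zero_nat.mono_left
        (Nat.hyperfilter_le_atTop)
  obtain ⟨T, hT⟩ := exists_T_ph (U := hyperfilter ℕ) (f := f) hδ h1 h1' h2
  have hsign : ∀ i, ∃ e : ℝ, (e = 1 ∨ e = -1) ∧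
      e • us (hyperfilter ℕ) (fun n => f n (x n i)) = T (us (hyperfilter ℕ) fun n => x n i) := by
    intro i
    rcases hT (fun n => x n i) with h | h
    · exact ⟨1, Or.inl rfl, by rw [one_smul]; exact h⟩
    · exact ⟨-1, Or.inr rfl, by rw [neg_one_smul, h, neg_neg]⟩
  choose e he heT using hsign
  choose a h3 using fun n => hx n e he
  have hs : ∀ n, 0 < ∑ i, |a n i| := by
    intro n
    by_contra hn
    have h0 : ∑ i, |a n i| = 0 :=
      le_antisymm (not_lt.mp hn) (Finset.sum_nonneg fun i _ => abs_nonneg _)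
    have h4 : ∀ i, a n i = 0 := fun i =>
      abs_eq_zero.mp ((Finset.sum_eq_zero_iff_of_nonneg fun i _ => abs_nonneg _).mp h0 i
        (Finset.mem_univ i))
    have h5 := h3 n
    simp [h4] at h5
  let b : ℕ → Fin m → ℝ := fun n i => (∑ i, |a n i|)⁻¹ * a n i
  have hb : ∀ n i, |b n i| ≤ 1 := by
    intro n i
    change |(∑ i, |a n i|)⁻¹ * a n i| ≤ 1
    rw [abs_mul, abs_inv, abs_of_pos (hs n), inv_mul_le_iff₀ (hs n), mul_one]
    exact Finset.single_le_sum (f := fun i => |a n i|) (fun i _ => abs_nonneg _)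
      (Finset.mem_univ i)
  have key := tendsto_comb_ph (U := hyperfilter ℕ) (f := f) (T := T) x e he heT b hb
  have h6 : ∀ n, ε < |‖∑ i, (b n i * e i) • (f n (x n i) : Y n)‖ -
      ‖∑ i, b n i • (x n i : X n)‖| := by
    intro n
    have e1 : ∑ i, (b n i * e i) • (f n (x n i) : Y n) =
        (∑ i, |a n i|)⁻¹ • ∑ i, (a n i * e i) • (f n (x n i) : Y n) := by
      rw [Finset.smul_sum]
      refine Finset.sum_congr rfl fun i _ => ?_
      rw [smul_smul, mul_assoc]
    have e2 : ∑ i, b n i • (x n i : X n) = (∑ i, |a n i|)⁻¹ • ∑ i, a n i • (x n i : X n) := by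
      rw [Finset.smul_sum]
      exact Finset.sum_congr rfl fun i _ => mul_smul _ _ _
    rw [e1, e2, norm_smul, norm_smul, ← mul_sub, abs_mul, abs_norm, norm_inv, Real.norm_eq_abs,
      abs_of_pos (hs n), lt_inv_mul_iff₀ (hs n), mul_comm]
    exact h3 n
  have h7 := key.abs
  rw [abs_zero] at h7
  have h8 := ge_of_tendsto h7 (Eventually.of_forall fun n => (h6 n).le)
  exact absurd h8 (not_le.mpr hε)

end Vale.Agent.P084.H83
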